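import Mathlib
import Vale.Agent.Lib.P355.Defs
import Vale.Agent.Lib.P355.DefsRatios
import Vale.Agent.Lib.P355.FieldObstructionProof
import Vale.Agent.Lib.P355.Cyclotomic
import Vale.Agent.Lib.P355.TR.Main

namespace Vale.Agent.Results.P355.CombinedObstructions

open Vale.Agent.Lib.P355

universe u

/-- Three statements on families of pairwise mutually unbiased orthonormal bases of `ℂ^6`
containing the standard basis.
(1) If `K` is a subring of `ℂ`, stable under complex conjugation, in which `6` is not of the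
form `z * conj z`, and the other members have every coordinate ratio of every vector in `K`,
the family has at most two members.
(2) The same when the coordinate ratios lie in the cyclotomic field `ℚ(ζ)`, `ζ ^ m = 1`, with
`m` dividing `p ^ t + 1` for `p = 2` or `p = 3`.
(3) If the coordinate ratios of the other members are twelfth roots of unity, the family has
at most three members: among any three members other than the standard basis, two coincide. -/
theorem result :
    (∀ (K : Subring ℂ), (∀ z ∈ K, (starRingEnd ℂ) z ∈ K) →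
      (∀ z ∈ K, z * (starRingEnd ℂ) z ≠ 6) →
      ∀ (ι : Type u) (B : ι → OrthonormalBasis (Fin 6) ℂ (EuclideanSpace ℂ (Fin 6))),
        (∀ i j, i ≠ j → MutuallyUnbiased (B i) (B j)) →
        ∀ i₀ : ι, B i₀ = EuclideanSpace.basisFun (Fin 6) ℂ →
          (∀ i, i ≠ i₀ → RatiosIn K (B i)) →
          ∀ i j, i ≠ i₀ → j ≠ i₀ → i = j) ∧
    (∀ (p t m : ℕ), (p = 2 ∨ p = 3) → m ∣ p ^ t + 1 → ∀ ζ : ℂ, ζ ^ m = 1 →
      ∀ (ι : Type u) (B : ι → OrthonormalBasis (Fin 6) ℂ (EuclideanSpace ℂ (Fin 6))),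
        (∀ i j, i ≠ j → MutuallyUnbiased (B i) (B j)) →
        ∀ i₀ : ι, B i₀ = EuclideanSpace.basisFun (Fin 6) ℂ →
          (∀ i, i ≠ i₀ → ∀ k a b,
            (B i k).ofLp a / (B i k).ofLp b ∈ IntermediateField.adjoin ℚ ({ζ} : Set ℂ)) →
          ∀ i j, i ≠ i₀ → j ≠ i₀ → i = j) ∧
    (∀ (ι : Type u) (B : ι → OrthonormalBasis (Fin 6) ℂ (EuclideanSpace ℂ (Fin 6))),
        (∀ i j, i ≠ j → MutuallyUnbiased (B i) (B j)) →
        ∀ i₀ : ι, B i₀ = EuclideanSpace.basisFun (Fin 6) ℂ →
          (∀ i, i ≠ i₀ → ∀ k a b, ((B i k).ofLp a / (B i k).ofLp b) ^ 12 = 1) →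
          ∀ i j l, i ≠ i₀ → j ≠ i₀ → l ≠ i₀ → i = j ∨ i = l ∨ j = l) :=
  ⟨fun K hconj hnorm _ B hMU i₀ hstd hK => fieldObstruction K hconj hnorm B hMU i₀ hstd hK,
    fun p t m hp hm ζ hζ _ B hMU i₀ hstd hK =>
      cyclotomicObstruction p t m hp hm ζ hζ B hMU i₀ hstd hK,
    fun _ B hMU i₀ hstd hR => Vale.Agent.Lib.P355.TR.twelfthRoots B hMU i₀ hstd hR⟩

end Vale.Agent.Results.P355.CombinedObstructions
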