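import Mathlib
import Vale.Agent.Lib.P355.Defs
import Vale.Agent.Lib.P355.Cyclotomic

namespace Vale.Agent.Results.P355.CyclotomicObstruction

open Vale.Agent.Lib.P355

/-- Let `p` be `2` or `3`, let `m` divide `p ^ t + 1` and let `ζ` be a complex `m`-th root of
unity.  Any family of pairwise mutually unbiased orthonormal bases of `ℂ^6` that contains the
standard basis and whose other members all have every coordinate ratio of every vector in the
cyclotomic field `ℚ(ζ)` has at most two members. -/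
theorem result (p t m : ℕ) (hp : p = 2 ∨ p = 3) (hm : m ∣ p ^ t + 1)
    (ζ : ℂ) (hζ : ζ ^ m = 1)
    {ι : Type*} (B : ι → OrthonormalBasis (Fin 6) ℂ (EuclideanSpace ℂ (Fin 6)))
    (hMU : ∀ i j, i ≠ j → MutuallyUnbiased (B i) (B j))
    (i₀ : ι) (hstd : B i₀ = EuclideanSpace.basisFun (Fin 6) ℂ)
    (hK : ∀ i, i ≠ i₀ → ∀ k a b,
      (B i k).ofLp a / (B i k).ofLp b ∈ IntermediateField.adjoin ℚ ({ζ} : Set ℂ)) :
    ∀ i j, i ≠ i₀ → j ≠ i₀ → i = j :=
  cyclotomicObstruction p t m hp hm ζ hζ B hMU i₀ hstd hK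

end Vale.Agent.Results.P355.CyclotomicObstruction
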