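import Mathlib
import Vale.Agent.Lib.P355.Defs
import Vale.Agent.Lib.P355.DefsRatios
import Vale.Agent.Lib.P355.FieldObstructionProof

namespace Vale.Agent.Results.P355.NormObstruction

open Vale.Agent.Lib.P355

/-- Let `K` be a subring of `ℂ`, stable under complex conjugation, in which `6` is not of the
form `z * conj z`.  Any family of pairwise mutually unbiased orthonormal bases of `ℂ^6` that
contains the standard basis and whose other members all have every coordinate ratio of every
vector in `K` has at most two members. -/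
theorem result (K : Subring ℂ)
    (hconj : ∀ z ∈ K, (starRingEnd ℂ) z ∈ K)
    (hnorm : ∀ z ∈ K, z * (starRingEnd ℂ) z ≠ 6)
    {ι : Type*} (B : ι → OrthonormalBasis (Fin 6) ℂ (EuclideanSpace ℂ (Fin 6)))
    (hMU : ∀ i j, i ≠ j → MutuallyUnbiased (B i) (B j))
    (i₀ : ι) (hstd : B i₀ = EuclideanSpace.basisFun (Fin 6) ℂ)
    (hK : ∀ i, i ≠ i₀ → RatiosIn K (B i)) :
    ∀ i j, i ≠ i₀ → j ≠ i₀ → i = j :=
  fieldObstruction K hconj hnorm B hMU i₀ hstd hK

end Vale.Agent.Results.P355.NormObstruction
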