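import Mathlib
import Vale.Agent.Lib.P355.Defs
import Vale.Agent.Lib.P355.TR.Main

namespace Vale.Agent.Results.P355.TwelfthRoots

open Vale.Agent.Lib.P355

/-- Any family of pairwise mutually unbiased orthonormal bases of `ℂ^6` that contains the
standard basis and in whose other members every ratio of two coordinates of every basis vector
is a twelfth root of unity has at most three members: among any three members other than the
standard basis, two coincide. -/
theorem result {ι : Type*} (B : ι → OrthonormalBasis (Fin 6) ℂ (EuclideanSpace ℂ (Fin 6)))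
    (hMU : ∀ i j, i ≠ j → MutuallyUnbiased (B i) (B j))
    (i₀ : ι) (hstd : B i₀ = EuclideanSpace.basisFun (Fin 6) ℂ)
    (hR : ∀ i, i ≠ i₀ → ∀ k a b, ((B i k).ofLp a / (B i k).ofLp b) ^ 12 = 1) :
    ∀ i j l, i ≠ i₀ → j ≠ i₀ → l ≠ i₀ → i = j ∨ i = l ∨ j = l :=
  Vale.Agent.Lib.P355.TR.twelfthRoots B hMU i₀ hstd hR

end Vale.Agent.Results.P355.TwelfthRoots
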